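import Mathlib

open Set Filter Topology MeasureTheory
open scoped ENNReal

namespace Vale.Agent.P210
noncomputable section

/-- Euclidean `n`-space, used as a global chart. -/
abbrev E (n : ℕ) := EuclideanSpace ℝ (Fin n)

variable {n : ℕ}

/-- The partial derivative in the `i`-th coordinate direction. -/
def pd (i : Fin n) (f : E n → ℝ) (x : E n) : ℝ :=
  fderiv ℝ f x (EuclideanSpace.single i 1)

/-- Christoffel symbols of the metric tensor `g`, upper index `k`, lower indices `i j`. -/
def chr (g : E n → Matrix (Fin n) (Fin n) ℝ) (k i j : Fin n) (x : E n) : ℝ :=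
  (1 / 2) * ∑ l, (g x)⁻¹ k l *
    (pd i (fun y => g y j l) x + pd j (fun y => g y i l) x - pd l (fun y => g y i j) x)

/-- The Ricci tensor of `g` in coordinates. -/
def ric (g : E n → Matrix (Fin n) (Fin n) ℝ) (i j : Fin n) (x : E n) : ℝ :=
  ∑ k, (pd k (chr g k i j) x - pd j (chr g k i k) x +
    ∑ l, (chr g k k l x * chr g l i j x - chr g k j l x * chr g l i k x))

/-- The scalar curvature of `g` in coordinates. -/
def scal (g : E n → Matrix (Fin n) (Fin n) ℝ) (x : E n) : ℝ :=
  ∑ i, ∑ j, (g x)⁻¹ i j * ric g i j x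

/-- The conformally flat metric tensor `exp (2 w)` times the Euclidean one. -/
def conf (w : E n → ℝ) (x : E n) : Matrix (Fin n) (Fin n) ℝ :=
  Real.exp (2 * w x) • (1 : Matrix (Fin n) (Fin n) ℝ)

/-- The `g`-length of the curve `γ` on the parameter interval from 0 to 1. -/
def len (g : E n → Matrix (Fin n) (Fin n) ℝ) (γ : ℝ → E n) : ℝ≥0∞ :=
  ∫⁻ t in Icc (0 : ℝ) 1,
    ENNReal.ofReal (Real.sqrt (∑ i, ∑ j, g (γ t) i j * deriv γ t i * deriv γ t j))

/-- Infimum of the `g`-lengths of continuously differentiable arcs in `Ω` from `x` to `y`. -/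
def arc (Ω : Set (E n)) (g : E n → Matrix (Fin n) (Fin n) ℝ) (x y : E n) : ℝ≥0∞ :=
  ⨅ (γ : ℝ → E n) (_ : ContDiff ℝ 1 γ) (_ : γ 0 = x) (_ : γ 1 = y)
    (_ : MapsTo γ (Icc 0 1) Ω), len g γ

/-- The Riemannian distance: infimum of the `g`-lengths of piecewise continuously
differentiable curves in `Ω` from `x` to `y`. -/
def rdist (Ω : Set (E n)) (g : E n → Matrix (Fin n) (Fin n) ℝ) (x y : E n) : ℝ≥0∞ :=
  ⨅ (N : ℕ) (p : ℕ → E n) (_ : p 0 = x) (_ : p N = y),
    ∑ i ∈ Finset.range N, arc Ω g (p i) (p (i + 1))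

/-- Completeness of `Ω` for the Riemannian distance: Cauchy sequences converge in `Ω`. -/
def Complete (Ω : Set (E n)) (g : E n → Matrix (Fin n) (Fin n) ℝ) : Prop :=
  ∀ u : ℕ → E n, (∀ k, u k ∈ Ω) →
    (∀ ε : ℝ≥0∞, 0 < ε → ∃ N, ∀ a ≥ N, ∀ b ≥ N, rdist Ω g (u a) (u b) < ε) →
    ∃ x ∈ Ω, Tendsto (fun k => rdist Ω g (u k) x) atTop (𝓝 0)

/-- The closed geometric simplex spanned by `s`, in barycentric coordinates. -/
def cell {V : Type} (s : Finset V) : Set (V → ℝ) :=
  {p | (∀ v, 0 ≤ p v) ∧ (∀ v, v ∉ s → p v = 0) ∧ ∑ v ∈ s, p v = 1}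

/-- The geometric realization of `K` as a set. -/
def space {V : Type} (K : AbstractSimplicialComplex V) : Set (V → ℝ) :=
  ⋃ s ∈ K.faces, cell s

theorem cell_subset {V : Type} (K : AbstractSimplicialComplex V) (s : K.faces) :
    cell (s : Finset V) ⊆ space K :=
  subset_biUnion_of_mem (u := fun s : Finset V => cell s) s.2

/-- The coherent topology of the geometric realization: a set is open when it meets every
closed simplex in an open set. -/
def spaceTop {V : Type} (K : AbstractSimplicialComplex V) : TopologicalSpace (space K) :=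
  ⨆ s : K.faces, TopologicalSpace.coinduced (Set.inclusion (cell_subset K s)) inferInstance

end
end Vale.Agent.P210
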